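import Crest.Agent.X212.Dgr80.Cf
import Crest.Agent.X212.Cyc79.Lg
import Crest.Agent.X212.Cyl58.SmB

/-!
# Row 212, KP-LG (helper24): Lipschitz bound and gradient identity for the densities
-/

set_option autoImplicit false
set_option linter.unusedSectionVars false
noncomputable section
open scoped Manifold ContDiff Topology InnerProductSpace
open MeasureTheory Set Function Filter

namespace Crest.Agent.X212.Lg24
open An Sob92 Dgr80 Cyl58
open Cyc79 (Pp Cy Ex cb_sm)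
open Nd18 (vr)

variable {E : Type} [NormedAddCommGroup E] [NormedSpace ℝ E] [FiniteDimensional ℝ E]
  [MeasurableSpace E] [BorelSpace E]
  {HM : Type} [TopologicalSpace HM] {I : ModelWithCorners ℝ E HM} [I.Boundaryless]
  {M : Type} [TopologicalSpace M] [ChartedSpace HM M] [IsManifold I ∞ M]
  [MeasurableSpace M] [T2Space M] [BorelSpace M] [SecondCountableTopology M]
  {ι : Type} [Fintype ι] {J : Type}

section gen
variable {U V P : Type} [NormedAddCommGroup U] [InnerProductSpace ℝ U] [CompleteSpace U]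
  [NormedAddCommGroup V] [InnerProductSpace ℝ V] [FiniteDimensional ℝ V] [CompleteSpace V]
  [NormedAddCommGroup P] [InnerProductSpace ℝ P] {F : Fr I M ι} {X : Cx F J} {α : J → M → Fm ι U}

theorem lip_dq' (R : ℝ) : ∃ K, 0 ≤ K ∧ ∀ v w : V, ‖v‖ ≤ R →
    (∀ l, ‖dq (v + w) l - dq v l‖ ≤ K * ‖w‖ * ‖l‖) ∧ ‖nq (v + w) - nq v - dq v w‖ ≤ K * ‖w‖ * ‖w‖ := by
  obtain ⟨K, K0, hK⟩ := lip_dq (V := V) (R + 1)
  refine ⟨K + 4, by positivity, fun v w hv => ?_⟩
  have n := norm_nonneg w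
  rcases le_total ‖w‖ 1 with h | h
  · have := hK v (v + w) (by linarith) ((norm_add_le _ _).trans (add_le_add hv h))
    rw [add_sub_cancel_left] at this
    exact ⟨fun l => ((dq (v + w) - dq v).le_opNorm l).trans (mul_le_mul_of_nonneg_right
      (this.1.trans (by nlinarith)) (norm_nonneg _)), this.2.trans (by nlinarith)⟩
  · have a := lip_nq v (v + w)
    rw [add_sub_cancel_left] at a
    have k : 4 ≤ (K + 4) * ‖w‖ := by nlinarith
    exact ⟨fun l => (norm_sub_le _ _).trans (by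
      nlinarith [norm_dq (v + w) l, norm_dq v l, norm_nonneg l]),
      (norm_sub_le _ _).trans (by nlinarith [norm_dq v w])⟩

theorem lg_nq {Q : (M → V) → Prop} {Φ : M → V} {φ : J → M → V} (hQ : ∀ u, Q u → Continuous u)
    (hΦ : F.Cb Φ) (oφ : X.O2 φ) (q : Q fun x => nq (Φ x)) (q' : ∀ j, Q fun x => nq (Φ x + φ j x)) :
    RS.Lg Q X (fun _ => Q) α φ (sd0 ι U Φ) fun j => sd0 ι U fun x => Φ x + φ j x := by
  obtain ⟨R, hR⟩ := cb_bd hΦ
  obtain ⟨K, K0, hK⟩ := lip_dq' (V := V) R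
  have k := fun j x => hK (Φ x) (φ j x) (hR x)
  have c := (cb_sm hΦ).continuous
  have c0 := cd_dq.continuous.comp c
  have c1 := fun j => cd_dq.continuous.comp (c.add (oφ.1 j))
  have o := oφ.dom (fun j => (hQ _ (q' j)).fun_sub (hQ _ q)) (K := 2) fun j x => by
    simpa only [add_sub_cancel_left] using lip_nq (Φ x) (Φ x + φ j x)
  have w : ∀ l, Q l → Bd l → X.Lw fun x => dq (Φ x) (l x) := fun l h b =>
    (Cx.lw_bd (hQ l h) b).dom (c0.clm_apply (hQ l h)) fun x => norm_dq _ _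
  refine ⟨⟨q, q', ⟨1, fun _ => norm_nq _⟩, ⟨1, zero_le_one, fun _ _ => norm_nq _⟩, o⟩,
    fun _ _ _ => Cx.o2_zero.congr fun _ _ => sub_self _, fun l l' h => ?_,
    fun _ _ _ => Cx.lw_bd continuous_const ⟨0, fun _ => norm_zero.le⟩, w, fun hX l h b => ?_⟩
  · refine ((h.d.dom (w := fun j x => dq (Φ x + φ j x) (l' j x - l x))
      (fun j => (c1 j).clm_apply (h.d.1 j)) fun j x => norm_dq _ _).add
      (oφ.ub h.bd.ub (w := fun j x => dq (Φ x + φ j x) (l x) - dq (Φ x) (l x))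
        (fun j => ((c1 j).clm_apply (hQ _ h.q)).sub (c0.clm_apply (hQ _ h.q))) K0 fun j x =>
          (k j x).1 _)).congr fun j x => ?_
    simp [sd0]
  · have b' := b
    obtain ⟨L, hL⟩ := b'
    refine (oφ.o1 hX oφ (f := fun j x => ⟪nq (Φ x + φ j x) - nq (Φ x) - dq (Φ x) (φ j x), l x⟫_ℝ)
      (K := K * |L|) (by positivity) fun j x => (abs_real_inner_le_norm _ _).trans
        ((mul_le_mul (k j x).2 ((hL x).trans (le_abs_self L)) (norm_nonneg _)
          (by positivity)).trans_eq (by ring))).congr fun j => ?_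
    simp only [sd0, inner_zero_right, integral_zero, sub_zero]
    rw [← integral_sub (o.inner hX j (Cx.lw_bd (hQ l h) b)) (oφ.inner hX j (w l h b))]
    simp only [inner_sub_left (nq _ - nq _), dq_symm]

variable {κ : Type} [Fintype κ] [DecidableEq κ] {A : ι → M → En κ} {A' : J → ι → M → En κ}
  {p : M → En κ}

theorem lz_qp {r : CL U (En κ)} {φ : J → M → P} (h : Pp F A p) (h' : ∀ j, Pp F (A' j) p)
    (e : ∀ j a x, A' j a x = A a x + r (α j x a)) (sα : ∀ j, Sm I (α j)) (oα : X.O2 α)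
    (oφ : X.O2 φ) : Lz A (QP F p) r X (fun _ => QP F p) A' α φ :=
  ⟨⟨h.mc, fun j => (h' j).mc, e, sα, oα, cls_qp h, fun j => cls_qp (h' j), fun u hu => by
    choose K hK using bn_qp h hu
    exact ⟨∑ a, |K a|, fun _ x a _ => ((hK a x).trans (le_abs_self _)).trans
      (Finset.single_le_sum (f := fun a => |K a|) (fun _ _ => abs_nonneg _) (Finset.mem_univ a))⟩⟩,
    oφ, fun _ hu => bn_qp h hu, fun _ _ => QP.smul, fun _ _ _ => QP.smul⟩

end gen

variable {lam : Type} [Fintype lam] {r : ℕ} {B : Base M ι lam} {G : Geo I M ι lam}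
  {c : Cfg M ι lam r} {X : Cx G.F J} {α : J → M → Fm ι c.m.A} {φ : J → M → c.m.V}

theorem rsP_eq (c : Cfg M ι lam r) : rsP c = sd0 ι c.m.A c.Φ :=
  congrArg (RS.mk _ _) (funext fun _ => funext fun _ => (dq_apply _ _).symm)

variable (B X α φ) in
/-- a configuration and a family of variations -/
structure Fam : Prop where
  gd : Gd B G c
  gd' : ∀ j, Gd B G (vr c (α j) (φ j))
  sα : ∀ j, Sm I (α j)
  oα : X.O2 α
  oφ : X.O2 φ
  ex : ∃ ψ k, Ex X ψ k

variable (X α φ) in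
/-- the estimates for a density -/
def LD (d : Den M ι lam r) : Prop :=
  RD.Lg (U := c.m.A) (P := c.m.V) X α φ (d.rd c) fun j => d.rd (vr c (α j) (φ j))

namespace Fam
variable (h : Fam B X α φ)
include h

theorem lgP : RS.Lg (QP G.F c.m.p) X (fun _ => QP G.F c.m.p) α φ (rsP c)
    fun j => rsP (vr c (α j) (φ j)) := by
  simp only [rsP_eq]
  exact lg_nq (fun _ hu => (cb_sm hu.1).continuous) h.gd.Φ h.oφ h.gd.q_nP fun j => (h.gd' j).q_nP

/-- spinor densities -/
theorem sw {T : Pk M lam} {u v : SW M} (hT : T.OK G.F) (hu : SW.OK G.F u) (hv : SW.OK G.F v) :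
    LD X α φ (Den.sw G.F T u v) := by
  have z := lz_qp (r := opL) h.gd.ppS (fun j => (h.gd' j).ppS) (fun _ _ _ => rfl) h.sα h.oα h.oφ
  have w := fun {u : SW M} (hu : SW.OK G.F u) => h.lgP.wd z (w := u.map (ltS G.F c))
    (List.forall_mem_map.2 fun t ht => ⟨h.gd.ok_lt (hu t ht), fun _ => h.gd.ok_lt (hu t ht), by
      cases e : ltS G.F c t
      exacts [cb_bd (h.gd.cb_lt (hu t ht) _ e), trivial]⟩)
  have e1 : ∀ j, ltS G.F (vr c (α j) (φ j)) = ltS G.F c := fun j => funext fun t => by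
    cases t <;> rfl
  have e2 : ∀ j, pk (vr c (α j) (φ j)) T = pk c T := fun j => by cases T <;> rfl
  simp only [LD, rd_sw, e1, e2]
  exact RS.Lg.pair z (w hu) (w hv) ⟨h.gd.ok_pk hT, fun _ => h.gd.ok_pk hT, cb_bd (h.gd.cb_pk hT)⟩
    (pk_symm h.gd.ok T)

/-- cyclic densities -/
theorem cy {d d' : Cy M} {w w' : List (La M)} (hd : d.OK G.F) (hw : ∀ t ∈ w, t.OK G.F)
    (hd' : d'.OK G.F) (hw' : ∀ t ∈ w', t.OK G.F) :
    LD X α φ (Den.sed ((d.sed G.F).wd G.F w) ((d'.sed G.F).wd G.F w')) := by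
  have z := lz_qp (r := adR _) h.gd.pp (fun j => (h.gd' j).pp) (fun _ _ _ => map_add Wz78.adcL _ _)
    h.sα h.oα h.oφ
  have e1 : ∀ j, laS (vr c (α j) (φ j)) = laS c := fun j => funext fun t => by cases t <;> rfl
  have k := fun {d : Cy M} {w : List (La M)} (hd : d.OK G.F) (hw : ∀ t ∈ w, t.OK G.F) =>
    (Cyc79.Lc.lg (Φ := fun j x => c.Φ x + φ j x) (z := fun _ => c.z) ⟨h.gd.toCO,
      fun j => (h.gd' j).toCO, hd, h.sα, h.oα, h.ex⟩ φ (fun _ hu => hu.1) (fun _ _ hu => hu.1)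
      (h.gd.q_cy hd) fun j => (h.gd' j).q_cy hd).wd z (w := w.map (laS c))
      (List.forall_mem_map.2 fun t ht => ⟨Gd.ok_la (hw t ht), fun _ => Gd.ok_la (hw t ht), by
        cases t
        exacts [cb_bd (Cb_smul (hw _ ht) (Cb_const _)), trivial]⟩)
  have o := ok_qp (F := G.F) (p := c.m.pg) Wz78.inner_pg (Cb_const 1) fun _ _ => rfl
  simp only [LD, rd_sed, rs_wd, e1]
  exact RS.Lg.pair z (k hd hw) (k hd' hw') ⟨o, fun _ => o, ⟨_, fun _ => le_rfl⟩⟩ fun _ _ _ => rfl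

end Fam

end Crest.Agent.X212.Lg24
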