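import Crest.Agent.X212.Lg24.Dg
import Crest.Agent.X212.Lg24.Den
import Crest.Agent.X212.Cyf70.Kp
import Crest.Agent.X212.Nka63.A

/-!
# Row 212, KP-LG (helper24): the delay gradient on the cylinder is Lipschitz and a gradient
-/

set_option autoImplicit false
set_option linter.unusedSectionVars false
noncomputable section
open scoped Manifold ContDiff Topology InnerProductSpace
open MeasureTheory Set Function Filter Real

namespace Crest.Agent.X212.Lg24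
open An Map77 Sob92 Nd18 Dec35 Cyf70 Dgr80 Nka63
open Cyc79 (Ex cb_sm)

section gen
variable {E : Type} [NormedAddCommGroup E] [NormedSpace ℝ E] [FiniteDimensional ℝ E]
  [MeasurableSpace E] [BorelSpace E]
  {HM : Type} [TopologicalSpace HM] {I : ModelWithCorners ℝ E HM} [I.Boundaryless]
  {M : Type} [TopologicalSpace M] [ChartedSpace HM M] [IsManifold I ∞ M]
  [MeasurableSpace M] [T2Space M] [BorelSpace M] [SecondCountableTopology M]
  {ι : Type} [Fintype ι] {lam : Type} [Fintype lam] {B : Base M ι lam} {G : Geo I M ι lam}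
  {c : Cfg M ι lam 0} {a u : M → Cv c}

theorem gd_cf (h : Bs B G c) (hu : G.F.Cb u) (ht : Tg B c u) : Gd B G (cf c u) :=
  have k := cf_adm h.adm (cb_sm hu) ht
  ⟨⟨h.hB, h.hG, k.ok, k.conn, h.tame, fun a => Cb_add (h.cW a) (Cb_clm (oa a) hu),
    h.dat.pg h.hB h.pmx⟩, k, Cb_add h.cΦ (Cb_clm fp hu), h.dat.p, h.dat.ρ, h.dat.j⟩

theorem cf_cf {T : Sort*} (f : c.m.Cn → (M → c.m.V) → T) :
    f (cf (cf c a) u).W (cf (cf c a) u).Φ = f (cf c (a + u)).W (cf c (a + u)).Φ :=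
  congrArg₂ f (funext fun _ => funext fun _ => by simp [cf, vr, Md.addC, add_assoc])
    (funext fun _ => by simp [cf, vr, add_assoc])

theorem dcut_one {r : ℕ} (d : Den M ι lam r) : dcut (fun _ => 1) d = d := by simp [dcut]

theorem dg_eq {K : Type} [Fintype K] [DecidableEq K] (N : DG M ι lam 0 K) (F : Fr I M ι)
    (c : Cfg M ι lam 0) {τ : M → ℝ} {δ : ℝ} (hτ : N.τ = τ) (hc : ∀ t, N.cut t = 1)
    (hδ : N.δ = fun _ => δ) (x : M) : N.gA F c x = gA F τ δ N.φ (fun i => (N.d i).rd c) x ∧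
      N.gP F c x = gP F τ δ N.φ (fun i => (N.d i).rd c) x := by
  unfold DG.gA DG.gP DG.β DG.co DG.Iv
  simp only [hτ, hc, hδ, one_mul]
  exact ⟨rfl, rfl⟩

theorem nw_zero {V : Type} [NormedAddCommGroup V] [InnerProductSpace ℝ V] (F : Pre I M ι)
    (ψ : M → ℝ) (u : M → V) : Dec35.nw F 0 ψ u = √(∫ x, exp (2 * ψ x) * ‖u x‖ ^ 2 ∂F.μ) := by
  simp only [Dec35.nw, Pre.nrm, Pre.ip, real_inner_self_eq_norm_sq, norm_smul, mul_pow, two_mul,
    exp_add, Real.norm_eq_abs, sq_abs, sq (exp _)]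

end gen

/-- exponents of slope at most `d` -/
def Sl (d : ℝ) (ψ : ℝ → ℝ) : Prop := ContDiff ℝ ∞ ψ ∧ ∀ t, |deriv ψ t| ≤ d

/-- `exp (2 lb) = b` -/
def lb (γ t : ℝ) : ℝ := log (b γ t) / 2

section sl
variable {d : ℝ} {ψ : ℝ → ℝ}

theorem Sl.lip (h : Sl d ψ) (s t : ℝ) : |ψ s - ψ t| ≤ d * |s - t| :=
  convex_univ.norm_image_sub_le_of_norm_deriv_le (fun x _ => h.1.differentiable (by simp) x)
    (fun x _ => h.2 x) trivial trivial

theorem Sl.neg (h : Sl d ψ) : Sl d fun t => -ψ t := ⟨h.1.neg, fun t => by simpa using h.2 t⟩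

theorem exp_lb (d0 : 0 < d) (t : ℝ) : exp (2 * lb d t) = b d t := by
  rw [lb, mul_div_cancel₀ _ two_ne_zero, exp_log (b_pos d0 t)]

theorem sl_lb (d0 : 0 < d) : Sl d (lb d) := by
  refine ⟨((contDiff_b d).log fun t => (b_pos d0 t).ne').div_const 2, fun t => ?_⟩
  have p := b_pos d0 t
  rw [show deriv (lb d) t = _ from (((hasDerivAt_b d t).log p.ne').div_const 2).deriv, abs_div,
    abs_div, abs_of_pos p, abs_two]
  linarith [(div_le_iff₀ p).2 (abs_deriv_b_le d0 t)]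

end sl

variable {E3 : Type} [NormedAddCommGroup E3] [NormedSpace ℝ E3] [FiniteDimensional ℝ E3]
  [MeasurableSpace E3] [BorelSpace E3]
  {H3 : Type} [TopologicalSpace H3] {I3 : ModelWithCorners ℝ E3 H3} [I3.Boundaryless]
  {Y : Type} [TopologicalSpace Y] [ChartedSpace H3 Y] [IsManifold I3 ∞ Y] [T2Space Y]
  [MeasurableSpace Y] [BorelSpace Y] [SecondCountableTopology Y] [CompactSpace Y]
  {κ : Type} [Fintype κ] {lam : Type} [Fintype lam]
  {N : ND Y lam} {D : YD I3 Y κ lam} {β : YC Y κ lam} {J : Type} {d δ : ℝ} {f : ℝ → ℝ}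
  {ψ : J → ℝ → ℝ} {X : Cx D.Z J}

theorem Dn (hf : ContDiff ℝ ∞ f) : D.Z.D none (fun x => f x.2) = fun x => deriv f x.2 :=
  D_none_snd D.F.toPre hf

theorem Ds (hf : ContDiff ℝ ∞ f) (a : κ) : D.Z.D (some a) (fun x => f x.2) = 0 :=
  D_some_snd D.F.toPre hf a

theorem sum_D (hf : ContDiff ℝ ∞ f) (x : Y × ℝ) :
    ∑ a, D.Z.D a (fun x => f x.2) x ^ 2 = deriv f x.2 ^ 2 := by simp [Dn hf, Ds hf]

theorem lop_snd (hf : ContDiff ℝ ∞ f) (x : Y × ℝ) :
    Mp86.Lop (IC I3) D.Z.e D.Z.dv (fun x => f x.2) x = deriv (deriv f) x.2 := by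
  change ∑ a, (D.Z.D a (D.Z.D a fun x => f x.2) x + D.Z.dv a x • D.Z.D a (fun x => f x.2) x) = _
  have z : ∀ a, D.Z.D (some a) (0 : Y × ℝ → ℝ) = 0 := Ds (f := fun _ => 0) contDiff_const
  simp [Dn hf, Ds hf, Dn (Neck67.cd_deriv hf), show D.Z.dv none x = 0 from rfl, z]

theorem cbs_snd (hf : ContDiff ℝ ∞ f) {A : ℕ → ℝ} (h : ∀ i t, |iteratedDeriv i f t| ≤ A i) :
    D.Z.CBs (fun x => f x.2) fun k => ∑ i ∈ Finset.range (k + 1), |A i| :=
  ⟨sm_snd hf, fun k => Cht98.CB_snd D.F.toPre k hf fun i hi t => ((h i t).trans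
    (le_abs_self _)).trans (Finset.single_le_sum (f := fun i => |A i|) (fun _ _ => abs_nonneg _)
      (Finset.mem_range.2 (by omega)))⟩

theorem wg_exp (h : Sl d f) (hd : d ≤ 1 / 4) : Wg D.Z fun x => exp (2 * f x.2) := by
  have c : ContDiff ℝ ∞ fun t => exp (2 * f t) := (contDiff_const.mul h.1).exp
  refine ⟨sm_snd c, fun _ => exp_pos _, fun x => ?_⟩
  rw [sum_D c, (((h.1.differentiable (by simp) x.2).hasDerivAt.const_mul 2).exp).deriv]
  have := pow_le_pow_left₀ (abs_nonneg _) ((h.2 x.2).trans hd) 2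
  rw [sq_abs] at this
  nlinarith [mul_le_mul_of_nonneg_left this (sq_nonneg (exp (2 * f x.2)))]

theorem slab (δ0 : 0 < δ) (hd : 4 * d ≤ δ) (h : ∀ j, Sl d (ψ j))
    (e : ∀ j x, X.W j x = exp (2 * ψ j x.2)) :
    Slab X Prod.snd δ (D.F.μ.real univ) fun j t => exp (2 * ψ j t) := by
  refine ⟨δ0, inferInstanceAs (SFinite (D.F.μ.prod volume)), continuous_snd, fun k hk =>
    ⟨hk.comp_snd D.F.μ, integral_fun_snd (μ := D.F.μ) k⟩, fun f hf hb => ?_, e,
    fun j => (continuous_const.mul (h j).1.continuous).rexp, fun _ _ => (exp_pos _).le,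
    fun j s t => ?_⟩
  · choose A hA using hb
    exact ⟨_, cbs_snd hf hA⟩
  · rw [← exp_add, exp_le_exp]
    nlinarith [(abs_le.1 ((h j).lip s t)).1, abs_nonneg (s - t)]

theorem ex (d0 : 0 ≤ d) (h1 : cb 1 1 * (16 * d) ≤ 1 / 16) (h2 : cb 1 2 * (16 * d) ≤ 1 / 32)
    (h : ∀ j, Sl d (ψ j)) (e : ∀ j x, X.W j x = exp (2 * ψ j x.2)) : ∃ χ k, Ex X χ k := by
  choose χ s c g using fun j => smooth (h j).1.continuous d0 (h j).lip
  have k : ∀ {x y : ℝ}, |x - y| ≤ 16 * d → exp y ^ 2 ≤ exp (32 * d) * exp x ^ 2 := fun h => by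
    rw [← exp_nat_mul, ← exp_nat_mul, ← exp_add, exp_le_exp]
    push_cast
    linarith [(abs_le.1 h).1]
  have e' : ∀ j x, X.W j x = exp (ψ j x.2) ^ 2 := fun j x => by rw [e, two_mul, exp_add, sq]
  refine ⟨fun j x => χ j x.2, exp (32 * d), fun j => sm_snd (s j), fun a => ?_, fun j x => ?_,
    fun j x => ?_, fun j x => e' j x ▸ k (c j _),
    fun j x => e' j x ▸ k ((abs_sub_comm _ _).trans_le (c j _))⟩
  · cases a with
    | none => exact ⟨_, fun j => Dn (D := D) (s j) ▸ cbs_snd (Neck67.cd_deriv (s j)) fun i t => by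
        rw [← iteratedDeriv_succ']; exact g j i t⟩
    | some a => simp only [Ds (s _)]; exact Ell97.UB.const 0
  · have := pow_le_pow_left₀ (abs_nonneg _) ((g j 0 x.2).trans h1) 2
    rw [sq_abs, zero_add, iteratedDeriv_one] at this
    rw [sum_D (s j)]; linarith
  · have := (le_abs_self _).trans ((g j 1 x.2).trans h2)
    rwa [iteratedDeriv_succ, iteratedDeriv_one, ← lop_snd (D := D) (s j)] at this

theorem ld (h : N.OK D) {c : Cfg (Y × ℝ) (Option κ) lam 0} {α φ} (k : Fam (G := D.G) (c := c) D.B X α φ)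
    (i : N.J) : LD (G := D.G) X α φ ((N.dg D.nk).d i) := by
  have e : D.nk.χ = fun _ => 1 := funext (nk_χ D)
  rcases i with j | j | j
  · have := h.d0 j
    simp only [ND.dg, Sum.elim_inl]
    generalize N.d0 j = y at this
    cases y <;> rw [Nk.den, e, dcut_one]
    exacts [k.sw trivial (D.nk.ok_sw this.1) (D.nk.ok_sw this.2), k.cy (ok_cyc D.nk this.1)
      (D.nk.ok_las this.2.1) (ok_cyc D.nk this.2.2.1) (D.nk.ok_las this.2.2.2)]
  all_goals
    simp only [ND.dg, Sum.elim_inl, Sum.elim_inr, Nk.dre, Nk.dim, e, dcut_one]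
    exact k.sw (D.nk.cb_ext (h.d2 j).1) (D.nk.ok_sw (h.d2 j).2.1) (D.nk.ok_sw (h.d2 j).2.2)

variable (N D β) in
/-- the densities at `β + a` -/
def rz (a : Cz β) (i : N.J) : RD (Y × ℝ) (Option κ) (cy β).m.A (cy β).m.V :=
  ((N.dg D.nk).d i).rd (cf (cy β) a)

variable (N D β) in
/-- the integrand of the delay functional -/
def fz (a : Cz β) (t : ℝ) : ℝ := N.φ (N.cx (iv D.Z Prod.snd N.δ (rz N D β a) t))

theorem gz_eq (a : Cz β) (x : Y × ℝ) : gz N D β a x = (mbd D.B (cy β).m).pC x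
    (i1 _ _ (gA D.Z Prod.snd N.δ (fun x => N.φ (N.cx x)) (rz N D β a) x) +
      i2 _ _ (gP D.Z Prod.snd N.δ (fun x => N.φ (N.cx x)) (rz N D β a) x)) :=
  have e := dg_eq (N.dg D.nk) D.Z (cf (cy β) a) (nk_τ D) (nk_cut D) rfl x
  congrArg₂ (fun (p : Fm (Option κ) (cy β).m.A) (q : (cy β).m.V) =>
    (mbd D.B (cy β).m).pC x (i1 _ _ p + i2 _ _ q)) e.1 e.2

theorem cd_cx (h : N.OK D) : ContDiff ℝ ∞ fun x => N.φ (N.cx x) :=
  h.sm.comp ((contDiff_pi.2 fun _ => contDiff_apply _ _ _).prodMk (contDiff_pi.2 fun _ =>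
    Complex.equivRealProdCLM.symm.contDiff.comp
      ((contDiff_apply _ _ _).prodMk (contDiff_apply _ _ _))))

theorem ex_d {c : ℝ} (δ0 : 0 < δ) (c0 : 0 ≤ c) : ∃ d > 0, 4 * d ≤ δ ∧ (c + 1) * d ≤ 1 / 512 :=
  ⟨min (δ / 4) (1 / 512 / (c + 1)), by positivity, by linarith [min_le_left (δ / 4) (1 / 512 / (c + 1))],
    (le_div_iff₀' (by positivity)).1 (min_le_right _ _)⟩

theorem o2_clm {V W : Type} [NormedAddCommGroup V] [NormedSpace ℝ V] [NormedAddCommGroup W]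
    [NormedSpace ℝ W] (L : V →L[ℝ] W) {v : J → Y × ℝ → V} (k : X.O2 v) : X.O2 fun j x => L (v j x) :=
  k.dom (fun j => L.continuous.comp (k.1 j)) fun j x => L.le_opNorm (v j x)

section core
variable (h : Hz N D β) {a : Cz β} (ha : Vb D β a) {u : J → Cz β} (hu : ∀ j, Vb D β (u j))
  (o : X.O2 u)
include h ha hu o

theorem ld' (e : ∃ χ k, Ex X χ k) (i : N.J) : RD.Lg X (fun j x => fa (u j x))
    (fun j x => fp (u j x)) (rz N D β a i) fun j => rz N D β (a + u j) i := by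
  have bs := bs_cyl h.ok h.adm
  have := ld h.nd (c := cf (cy β) a) ⟨gd_cf bs ha.cb ha.tg, fun j =>
    (cf_cf (a := a) (u := u j) fun W Φ => Gd D.B D.G ⟨(cy β).m, W, Φ, β.z⟩).mpr
      (gd_cf bs (Cb_add ha.cb (hu j).cb) (ha.tg.add (hu j).tg)),
    fun j => cb_sm (Cb_clm fa (hu j).cb), o2_clm fa o, o2_clm fp o, e⟩ i
  have e' := fun j => cf_cf (T := RD _ _ (cy β).m.A (cy β).m.V) (a := a) (u := u j) fun W Φ =>
    ((N.dg D.nk).d i).rd ⟨(cy β).m, W, Φ, β.z⟩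
  exact (congrArg (RD.Lg X _ _ (rz N D β a i)) (funext e')).mp this

theorem of_lg {L : ℝ} {w : J → ℝ → ℝ} (g : Lg X Prod.snd N.δ (fun x => N.φ (N.cx x)) (rz N D β a)
    (fun j => rz N D β (a + u j)) (fun j x => fa (u j x)) (fun j x => fp (u j x)) L w) :
    (X.O2 fun j x => gz N D β (a + u j) x - gz N D β a x) ∧ (X.Big → (∀ j t, 1 ≤ L * w j t) →
      (∀ j, Integrable fun t => fz N D β (a + u j) t - fz N D β a t) ∧ X.O1 fun j =>
        (∫ t, (fz N D β (a + u j) t - fz N D β a t)) - ∫ x, ⟪gz N D β a x, u j x⟫_ℝ ∂D.Z.μ) := by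
  have bs := bs_cyl h.ok h.adm
  obtain ⟨K, hK⟩ := cb_bd bs.cb_pC
  have o1 := (o2_clm (i1 _ (cy β).m.V) g.A).add (o2_clm (i2 (Fm (Option κ) (cy β).m.A) _) g.P)
  refine ⟨(o1.dom (fun j => (cb_sm bs.cb_pC).continuous.clm_apply (o1.1 j)) fun j x =>
    (ContinuousLinearMap.le_opNorm _ _).trans (mul_le_mul_of_nonneg_right (hK x)
      (norm_nonneg _))).congr fun j x => ?_, fun hX hL => ⟨(g.o1 hX hL).1,
    (g.o1 hX hL).2.congr fun j => ?_⟩⟩
  · simp only [gz_eq, map_sub, map_add]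
    abel
  · rw [sub_sub, ← integral_add ((o2_clm fa o).inner hX j g.wA) ((o2_clm fp o).inner hX j g.wP)]
    refine congrArg₂ _ rfl (congrArg _ (funext fun x => ?_))
    rw [gz_eq, bs.ok.prjC.symm, (hu j).tg x, real_inner_comm, inner2]
    simp

end core

theorem core (h : Hz N D β) : ∃ d > 0, d ≤ 1 / 4 ∧ ∀ {J : Type} (X : Cx D.Z J) (ψ : J → ℝ → ℝ),
    (∀ j, Sl d (ψ j)) → (∀ j x, X.W j x = exp (2 * ψ j x.2)) → ∀ a, Vb D β a → ∀ u : J → Cz β,
    (∀ j, Vb D β (u j)) → X.O2 u → ∀ L,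
    (X.O2 fun j x => gz N D β (a + u j) x - gz N D β a x) ∧ (X.Big →
      (∀ j t, 1 ≤ L * exp (2 * ψ j t)) →
      (∀ j, Integrable fun t => fz N D β (a + u j) t - fz N D β a t) ∧ X.O1 fun j =>
        (∫ t, (fz N D β (a + u j) t - fz N D β a t)) - ∫ x, ⟪gz N D β a x, u j x⟫_ℝ ∂D.Z.μ) := by
  have c1 := cb_nonneg 1 1
  have c2 := cb_nonneg 1 2
  obtain ⟨d, d0, d1, d2⟩ := ex_d h.nd.δ0 (add_nonneg c1 c2)
  have a1 := mul_nonneg c1 d0.le
  have a2 := mul_nonneg c2 d0.le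
  exact ⟨d, d0, by linarith, fun X ψ hψ e a ha u hu o L => of_lg h ha hu o
    ((slab h.nd.δ0 d1 hψ e).lg (cd_cx h.nd) (o2_clm fa o) (o2_clm fp o)
      (ld' h ha hu o (ex d0.le (by linarith) (by linarith) hψ e)) L)⟩

variable (D) in
/-- the weights `exp (2 ψ j)` -/
def cx (hD : D.OK) (d0 : 0 < d) (d1 : d ≤ 1 / 4) (h : ∀ j, Sl d (ψ j)) (u : J → Cz β) : Cx D.Z J :=
  ⟨fun x => exp (2 * lb d x.2), fun j x => exp (2 * ψ j x.2),
    fun j => ∫ x, exp (2 * ψ j x.2) * ‖u j x‖ ^ 2 ∂D.Z.μ,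
    amb_of_tame (tame_Z hD).choose_spec (wg_exp (sl_lb d0) d1) (by
      simp only [exp_lb d0]; exact (integrable_b d0).comp_snd D.F.μ),
    fun j => wg_exp (h j) d1, fun _ => integral_nonneg fun _ => by positivity⟩

theorem vb (hD : D.OK) {u : Cz β} (h : Vr D β u) : Vb D β u :=
  ⟨h.fl.cb (tame_Z hD).choose_spec, h.tg⟩

theorem lp0 (h : Hz N D β) : Lp0 N D β := by
  obtain ⟨d, d0, d1, k⟩ := core h
  let J := {p : (ℝ → ℝ) × Cz β // Neck67.Sm p.1 ∧ (∀ t, |deriv p.1 t| ≤ d) ∧ Vr D β p.2}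
  have s : ∀ j : J, Sl d j.1.1 := fun j => ⟨j.2.1.cd, j.2.2.1⟩
  have i : ∀ j : J, Integrable (fun x => exp (2 * j.1.1 x.2) * ‖j.1.2 x‖ ^ 2) D.Z.μ := fun j =>
    let ⟨A, hA⟩ := j.2.1.bd 0
    (MemLp.integrable_norm_pow (j.2.2.2.fl.fl 0) two_ne_zero).bdd_mul (c := exp (2 * A))
      (wg_exp (D := D) (s j) d1).sm.continuous.aestronglyMeasurable (.of_forall fun x => by
        rw [Real.norm_of_nonneg (exp_pos _).le, exp_le_exp]; linarith [(abs_le.1 (hA x.2)).2])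
  obtain ⟨-, C, C0, hC⟩ := (k (cx D h.ok d0 d1 s fun j => j.1.2) _ s (fun _ _ => rfl) 0
    ⟨Cb_const 0, Tg.zero⟩ (fun j => j.1.2) (fun j => vb h.ok j.2.2.2)
    ⟨fun j => j.2.2.2.fl.sm.continuous, 1, zero_le_one, fun j => ⟨i j, (one_mul _).ge⟩⟩ 0).1
  refine ⟨d, d0, √C, sqrt_nonneg C, fun ψ h1 h2 u hu => ?_⟩
  have := (hC ⟨(ψ, u), h1, h2, hu⟩).2
  simp only [zero_add] at this
  rw [nw_zero, nw_zero, ← sqrt_mul C0]
  exact sqrt_le_sqrt this

theorem line (h : Hz N D β) {a v : Cz β} (ha : Vb D β a) (hv : Vb D β v)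
    (hc : HasCompactSupport v) :
    (∀ s : ℝ, Integrable fun t => fz N D β (a + s • v) t - fz N D β a t) ∧ ∃ C, ∀ s : ℝ,
      |(∫ t, (fz N D β (a + s • v) t - fz N D β a t)) - s * ∫ x, ⟪gz N D β a x, v x⟫_ℝ ∂D.Z.μ| ≤
        C * s ^ 2 := by
  obtain ⟨d, d0, d1, k⟩ := core h
  have s : ∀ _ : ℝ, Sl d fun t => -lb d t := fun _ => (sl_lb d0).neg
  have c := (cb_sm hv.cb).continuous
  have e : ∀ t, exp (2 * -lb d t) * exp (2 * lb d t) = 1 := fun t => by rw [← exp_add]; simp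
  have b : ∀ t, exp (2 * lb d t) ≤ d := fun t => (exp_lb d0 t).trans_le (b_le d0 t)
  obtain ⟨i, C, -, hC⟩ := (k (cx D h.ok d0 d1 s fun s => s • v) _ s (fun _ _ => rfl) a ha
    (fun s => s • v) (fun s => ⟨Cb_smul (Cb_const s) hv.cb, hv.tg.smul fun _ => s⟩)
    ⟨fun s => c.const_smul s, 1, zero_le_one, fun t => ⟨Continuous.integrable_of_hasCompactSupport
      ((wg_exp (D := D) (s t) d1).sm.continuous.mul ((c.const_smul t).norm.pow 2))
      (hc.mono fun x hx h => hx (by simp [h])), (one_mul _).ge⟩⟩ d).2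
    ⟨fun _ _ => (e _).ge, d, fun _ => b _⟩ fun _ t => (e t).ge.trans (by
      rw [mul_comm]; exact mul_le_mul_of_nonneg_right (b t) (exp_pos _).le)
  refine ⟨i, C * ∫ x, exp (2 * -lb d x.2) * ‖v x‖ ^ 2 ∂D.Z.μ, fun s => ?_⟩
  have := hC s
  simp only [cx, Pi.smul_apply, real_inner_smul_right, norm_smul, mul_pow, Real.norm_eq_abs, sq_abs,
    mul_left_comm _ (s ^ 2), integral_const_mul] at this
  exact this.trans_eq (by ring)

theorem grad (h : Hz N D β) : Grad N D β := by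
  refine ⟨fun a => ∫ t, (fz N D β a t - fz N D β 0 t), fun a v ha hv ca cv => ?_⟩
  have i := (line h (a := 0) ⟨Cb_const 0, Tg.zero⟩ (vb h.ok ha) ca).1 1
  rw [zero_add, one_smul] at i
  obtain ⟨k, C, hC⟩ := line h (vb h.ok ha) (vb h.ok hv) cv
  refine hasDerivAt_iff_isLittleO_nhds_zero.2 ((Asymptotics.IsBigO.of_bound C (.of_forall fun s =>
    ?_)).trans_isLittleO (Asymptotics.isLittleO_pow_id one_lt_two))
  have := integral_add (k s) i
  simp only [sub_add_sub_cancel] at this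
  simp only [zero_add, zero_smul, add_zero, this, add_sub_cancel_right, norm_pow, Real.norm_eq_abs,
    sq_abs]
  exact hC s

/-- **KP-LG** -/
theorem lgStmt : LgStmt I3 Y κ lam := fun _ _ _ h => ⟨lp0 h, grad h⟩

end Crest.Agent.X212.Lg24
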