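import Crest.Agent.X212.Lg24.Sch
import Crest.Agent.X212.Dgr80.Cf

/-!
# Row 212, KP-LG (helper24): Lipschitz bound and gradient identity for the delay functional
-/

set_option autoImplicit false
set_option linter.unusedSectionVars false
noncomputable section
open scoped Manifold ContDiff Topology InnerProductSpace
open MeasureTheory Set Function Filter Real

namespace Crest.Agent.X212.Lg24
open An Dgr80

variable {E : Type} [NormedAddCommGroup E] [NormedSpace ℝ E] [FiniteDimensional ℝ E]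
  [MeasurableSpace E] [BorelSpace E]
  {HM : Type} [TopologicalSpace HM] {I : ModelWithCorners ℝ E HM} [I.Boundaryless]
  {M : Type} [TopologicalSpace M] [ChartedSpace HM M] [IsManifold I ∞ M]
  [MeasurableSpace M] [T2Space M] [BorelSpace M] [SecondCountableTopology M]
  {ι : Type} [Fintype ι] {F : Fr I M ι} {J K : Type} [Fintype K] [DecidableEq K]
  {U P : Type} [NormedAddCommGroup U] [InnerProductSpace ℝ U] [CompleteSpace U]
  [NormedAddCommGroup P] [InnerProductSpace ℝ P]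
  {X : Cx F J} {τ : M → ℝ} {δ V R : ℝ} {w g g' : J → ℝ → ℝ}

variable (X τ δ V w) in
/-- the time function of a product and weights which are functions of time -/
structure Slab : Prop where
  δ0 : 0 < δ
  sf : SFinite F.μ
  ct : Continuous τ
  int : ∀ k : ℝ → ℝ, Integrable k →
    Integrable (fun x => k (τ x)) F.μ ∧ ∫ x, k (τ x) ∂F.μ = V * ∫ t, k t
  cb : ∀ f : ℝ → ℝ, ContDiff ℝ ∞ f → (∀ k, ∃ C, ∀ t, |iteratedDeriv k f t| ≤ C) →
    F.Cb fun x => f (τ x)
  eq : ∀ j x, X.W j x = w j (τ x)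
  cw : ∀ j, Continuous (w j)
  nn : ∀ j t, 0 ≤ w j t
  lip : ∀ j s t, w j t ≤ exp (δ / 2 * |s - t|) * w j s

variable (X w) in
/-- bounded functions of time with `∫ w j g² ≤ C D j` -/
def T2 (g : J → ℝ → ℝ) : Prop := (∀ j, Continuous (g j)) ∧ (∃ R, ∀ j t, |g j t| ≤ R) ∧
  ∃ C, 0 ≤ C ∧ ∀ j, LB volume (fun t => w j t * g j t ^ 2) (C * X.D j)

namespace Slab
variable (S : Slab X τ δ V w)
include S

theorem one (t : ℝ) : wn F.μ τ δ (fun _ => (1 : ℝ)) t = V := by
  simpa [wn, integral_sub_right_eq_self, integral_b S.δ0] using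
    (S.int _ ((integrable_b S.δ0).comp_sub_right t)).2

theorem V0 : 0 ≤ V := (wn_nonneg S.δ0 (fun _ => zero_le_one) 0).trans_eq (S.one 0)

theorem w1 : WI F.μ τ δ fun _ => (1 : ℝ) := ⟨S.ct.aestronglyMeasurable, aestronglyMeasurable_const,
  by simpa using (S.int _ (integrable_b S.δ0)).1⟩

theorem wi {h : M → ℝ} (c : Continuous h) (hR : ∀ x, ‖h x‖ ≤ R) : WI F.μ τ δ h :=
  wi_bd S.δ0 S.w1 c.aestronglyMeasurable hR

theorem wn_le {h : M → ℝ} (hR : ∀ x, ‖h x‖ ≤ R) (t : ℝ) : ‖wn F.μ τ δ h t‖ ≤ |R| * V := by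
  rw [← S.one t, wn, wn, ← integral_const_mul]
  refine norm_integral_le_of_norm_le ((S.w1.int S.δ0 t).const_mul _) (.of_forall fun x => ?_)
  rw [norm_smul, smul_eq_mul, mul_one, mul_comm, Real.norm_of_nonneg (b_pos S.δ0 _).le]
  exact mul_le_mul_of_nonneg_right ((hR x).trans (le_abs_self R)) (b_pos S.δ0 _).le

theorem t2_wn {h : J → M → ℝ} (o : X.O2 h) (hR : ∀ j x, ‖h j x‖ ≤ R) :
    T2 X w fun j => wn F.μ τ δ (h j) := by
  obtain ⟨c, C, C0, o⟩ := o
  simp only [S.eq, Real.norm_eq_abs, sq_abs] at o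
  have := S.sf
  have k := fun j => schur S.δ0 S.w1 (fun t => (S.one t).le) (S.cw j) (S.nn j) (S.lip j)
    (c j).aestronglyMeasurable (hR j) (o j).1
  have := S.V0
  exact ⟨fun j => ((S.wi (c j) (hR j)).contDiff_wn S.δ0).continuous, ⟨_, fun j => S.wn_le (hR j)⟩,
    8 * V * C, by positivity, fun j => ⟨(k j).1, (k j).2.trans
      ((mul_le_mul_of_nonneg_left (o j).2 (by positivity)).trans_eq (by ring))⟩⟩

theorem o2_cv (h : T2 X w g) : X.O2 fun j x => cv δ (g j) (τ x) := by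
  obtain ⟨c, ⟨R, hR⟩, C, C0, o⟩ := h
  have k := fun j => schur (τ := id) S.δ0 (wi_of_bdd S.δ0 aestronglyMeasurable_const (C := 1)
    (by simp)) (fun t => by rw [← cv_eq_wn, cv_one S.δ0]) (S.cw j) (S.nn j) (S.lip j)
    (c j).aestronglyMeasurable (hR j) (o j).1
  simp only [← cv_eq_wn] at k
  have := S.V0
  refine ⟨fun j => (cv_bounds S.δ0 (c j).aestronglyMeasurable (hR j)).1.continuous.comp S.ct,
    V * (8 * C), by positivity, fun j => ?_⟩
  simp only [S.eq, Real.norm_eq_abs, sq_abs]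
  exact ⟨(S.int _ (k j).1).1, (S.int _ (k j).1).2.trans_le ((mul_le_mul_of_nonneg_left ((k j).2.trans
    (mul_le_mul_of_nonneg_left (o j).2 (by norm_num))) this).trans_eq (by ring))⟩

theorem t2_dom {v : K → J → ℝ → ℝ} (h : ∀ i, T2 X w (v i)) (c : ∀ j, Continuous (g j)) {L : ℝ}
    (hL : ∀ j t, |g j t| ≤ L * ‖fun i => v i j t‖) : T2 X w g := by
  choose R hR using fun i => (h i).2.1
  choose C C0 hC using fun i => (h i).2.2
  refine ⟨c, ⟨|L| * ‖R‖, fun j t => (hL j t).trans (mul_le_mul (le_abs_self L)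
    ((pi_norm_le_iff_of_nonneg (norm_nonneg R)).2 fun i => (hR i j t).trans
      ((le_abs_self _).trans (norm_le_pi_norm R i))) (norm_nonneg _) (abs_nonneg L))⟩,
    L ^ 2 * ∑ i, C i, mul_nonneg (sq_nonneg L) (Finset.sum_nonneg fun i _ => C0 i), fun j =>
    (((LB.sum Finset.univ fun i _ => hC i j).mul (sq_nonneg L)).mono
      ((S.cw j).mul ((c j).pow 2)).aestronglyMeasurable
      (fun t => mul_nonneg (S.nn j t) (sq_nonneg _)) fun t => ?_).le
      (by rw [← Finset.sum_mul, mul_assoc])⟩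
  have s0 : 0 ≤ ∑ i, v i j t ^ 2 := by positivity
  have h1 : ‖fun i => v i j t‖ ≤ √(∑ i, v i j t ^ 2) :=
    (pi_norm_le_iff_of_nonneg (sqrt_nonneg _)).2 fun i => Real.abs_le_sqrt
      (Finset.single_le_sum (f := fun i => v i j t ^ 2) (fun _ _ => sq_nonneg _) (Finset.mem_univ i))
  have h2 := pow_le_pow_left₀ (abs_nonneg _) (hL j t) 2
  have h3 := mul_le_mul_of_nonneg_left (pow_le_pow_left₀ (norm_nonneg _) h1 2) (sq_nonneg L)
  rw [sq_abs, mul_pow] at h2
  rw [sq_sqrt s0] at h3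
  rw [← Finset.mul_sum, mul_left_comm]
  exact mul_le_mul_of_nonneg_left (h2.trans h3) (S.nn j t)

end Slab

section defs
variable (F τ δ) (φ : (K → ℝ) → ℝ) (d : K → RD M ι U P)

/-- the window invariants -/
def iv (t : ℝ) : K → ℝ := fun i => wn F.μ τ δ (d i).h t

def co (i : K) (t : ℝ) : ℝ := fderiv ℝ φ (iv F τ δ d t) (Pi.single i 1)

/-- the coefficient functions -/
def bt (i : K) (x : M) : ℝ := cv δ (co F τ δ φ d i) (τ x)

/-- the gradient, connection part -/
def gA (x : M) : Fm ι U := ∑ i, (d i).gA (bt F τ δ φ d i) x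

/-- the gradient, spinor part -/
def gP (x : M) : P := ∑ i, (d i).gP (bt F τ δ φ d i) x

end defs

variable {φ : (K → ℝ) → ℝ} {d : K → RD M ι U P} {d' : J → K → RD M ι U P} {α : J → M → Fm ι U}
  {η : J → M → P}

variable (X τ δ φ d d' α η) in
/-- the conclusion -/
structure Lg (L : ℝ) (w : J → ℝ → ℝ) : Prop where
  A : X.O2 fun j x => gA F τ δ φ (d' j) x - gA F τ δ φ d x
  P : X.O2 fun j x => gP F τ δ φ (d' j) x - gP F τ δ φ d x
  wA : X.Lw (gA F τ δ φ d)
  wP : X.Lw (gP F τ δ φ d)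
  o1 : X.Big → (∀ j t, 1 ≤ L * w j t) →
    (∀ j, Integrable fun t => φ (iv F τ δ (d' j) t) - φ (iv F τ δ d t)) ∧
    X.O1 fun j => (∫ t, (φ (iv F τ δ (d' j) t) - φ (iv F τ δ d t))) -
      ∫ x, ⟪α j x, gA F τ δ φ d x⟫_ℝ ∂F.μ - ∫ x, ⟪η j x, gP F τ δ φ d x⟫_ℝ ∂F.μ

theorem Slab.lg (S : Slab X τ δ V w) (hφ : ContDiff ℝ ∞ φ) (oα : X.O2 α) (oη : X.O2 η)
    (h : ∀ i, RD.Lg X α η (d i) fun j => d' j i) (L : ℝ) : Lg X τ δ φ d d' α η L w := by
  choose R hR using fun i => (h i).bd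
  choose R' _ hR' using fun i => (h i).ub
  have c' : ∀ i j, Continuous (d' j i).h := fun i j =>
    (((h i).h.1 j).add (h i).c0).congr fun x => sub_add_cancel _ _
  have w0 := fun i => S.wi (h i).c0 (hR i)
  have w1 := fun i j => S.wi (c' i j) (hR' i j)
  have V0 := S.V0
  obtain ⟨T, T0, hT⟩ := exists_taylor hφ ((‖R‖ + ‖R'‖) * V)
  have n0 : ∀ t, ‖iv F τ δ d t‖ ≤ (‖R‖ + ‖R'‖) * V := fun t =>
    (pi_norm_le_iff_of_nonneg (by positivity)).2 fun i => (S.wn_le (hR i) t).trans (by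
      gcongr; exact (norm_le_pi_norm R i).trans (le_add_of_nonneg_right (norm_nonneg _)))
  have n1 : ∀ j t, ‖iv F τ δ (d' j) t‖ ≤ (‖R‖ + ‖R'‖) * V := fun j t =>
    (pi_norm_le_iff_of_nonneg (by positivity)).2 fun i => (S.wn_le (hR' i j) t).trans (by
      gcongr; exact (norm_le_pi_norm R' i).trans (le_add_of_nonneg_left (norm_nonneg _)))
  have i0 : Continuous (iv F τ δ d) := continuous_pi fun i => ((w0 i).contDiff_wn S.δ0).continuous
  have i1 : ∀ j, Continuous (iv F τ δ (d' j)) := fun j =>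
    continuous_pi fun i => ((w1 i j).contDiff_wn S.δ0).continuous
  have cf := hφ.continuous_fderiv (by simp)
  have ap : ∀ (A : (K → ℝ) →L[ℝ] ℝ) i, |A (Pi.single i 1)| ≤ ‖A‖ := fun A i => by
    simpa [Pi.norm_single] using A.le_opNorm (Pi.single i 1)
  have key : ∀ {e : K → RD M ι U P}, Continuous (iv F τ δ e) →
      (∀ t, ‖iv F τ δ e t‖ ≤ (‖R‖ + ‖R'‖) * V) → ∀ i, Continuous (co F τ δ φ e i) ∧
        (∀ t, |co F τ δ φ e i t| ≤ T) ∧ F.Cb (bt F τ δ φ e i) ∧ ∀ x, ‖bt F τ δ φ e i x‖ ≤ T :=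
    fun {e} c n i => by
      have a1 : Continuous (co F τ δ φ e i) := (cf.comp c).clm_apply continuous_const
      have a2 : ∀ t, |co F τ δ φ e i t| ≤ T := fun t => (ap _ i).trans (hT _ _ (n t) (n t)).2.1
      have a3 := cv_bounds S.δ0 a1.aestronglyMeasurable a2
      exact ⟨a1, a2, S.cb _ a3.1 fun k => ⟨_, a3.2.2 k⟩, fun x => a3.2.1 _⟩
  have k0 := key i0 n0
  have k1 := fun j => key (i1 j) (n1 j)
  have t1 := fun i => S.t2_wn (h i).h (R := R' i + R i) fun j x =>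
    (norm_sub_le _ _).trans (add_le_add (hR' i j x) (hR i x))
  have e1 : ∀ j t, (fun i => wn F.μ τ δ (fun x => (d' j i).h x - (d i).h x) t) =
      iv F τ δ (d' j) t - iv F τ δ d t := fun j t =>
    funext fun i => wn_sub S.δ0 (w1 i j) (w0 i) t
  have pf : ∀ i, Pf X (bt F τ δ φ d i) fun j => bt F τ δ φ (d' j) i := fun i =>
    ⟨(k0 i).2.2.1, fun j => (k1 j i).2.2.1, ⟨T, (k0 i).2.2.2⟩, ⟨T, T0, fun j => (k1 j i).2.2.2⟩,
      (S.o2_cv (S.t2_dom t1 (g := fun j t => co F τ δ φ (d' j) i t - co F τ δ φ d i t)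
        (fun j => (k1 j i).1.sub (k0 i).1) (L := T) fun j t => by
          rw [e1]; exact (ap (_ - _) i).trans (hT _ _ (n0 t) (n1 j t)).2.2.2.1)).congr fun j x => by
        simp only [bt, cv_eq_wn]
        exact (wn_sub S.δ0 (wi_of_bdd S.δ0 (k1 j i).1.aestronglyMeasurable (k1 j i).2.1)
          (wi_of_bdd S.δ0 (k0 i).1.aestronglyMeasurable (k0 i).2.1) _).symm⟩
  have lA := fun i => (h i).wA _ (pf i).q
  have lP := fun i => (h i).wP _ (pf i).q
  refine ⟨(Cx.O2.sum Finset.univ fun i _ => (h i).A _ _ (pf i)).congr fun j x =>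
      (Finset.sum_sub_distrib _ _).symm, (Cx.O2.sum Finset.univ fun i _ =>
      (h i).P _ _ (pf i)).congr fun j x => (Finset.sum_sub_distrib _ _).symm,
    Cx.Lw.sum _ fun i _ => lA i, Cx.Lw.sum _ fun i _ => lP i, fun hX hL => ?_⟩
  obtain ⟨-, -, C, C0, hC⟩ := S.t2_dom t1 (g := fun j t => ‖iv F τ δ (d' j) t - iv F τ δ d t‖)
    (fun j => ((i1 j).sub i0).norm) (L := 1) fun j t => by rw [e1, one_mul, abs_norm]
  have := S.sf
  have f1 := fun j i => integral_mul_wn S.δ0 S.ct.aestronglyMeasurable ((h i).h.int hX j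
    (Cx.lw_bd (v := fun _ => (1 : ℝ)) continuous_const ⟨1, by simp⟩) ((h i).h.1 j) (K := 1)
      (by simp)) (k0 i).1.aestronglyMeasurable (k0 i).2.1
  have f2 := fun j => integrable_finsetSum Finset.univ fun i _ => (f1 j i).1
  have f3 : ∀ j t, ‖φ (iv F τ δ (d' j) t) - φ (iv F τ δ d t) - ∑ i, co F τ δ φ d i t •
      wn F.μ τ δ (fun x => (d' j i).h x - (d i).h x) t‖ ≤
      T * |L| * (w j t * ‖iv F τ δ (d' j) t - iv F τ δ d t‖ ^ 2) := fun j t => by
    have a1 := (hT _ _ (n0 t) (n1 j t)).2.2.2.2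
    have a2 := mul_le_mul_of_nonneg_right ((hL j t).trans (mul_le_mul_of_nonneg_right
      (le_abs_self L) (S.nn j t))) (mul_nonneg T0 (sq_nonneg ‖iv F τ δ (d' j) t - iv F τ δ d t‖))
    nth_rw 1 [← e1] at a1
    rw [pi_eq_sum_univ' fun i => wn F.μ τ δ _ t] at a1
    simp only [map_sum, map_smul, smul_eq_mul, co, mul_comm (fderiv ℝ φ _ _)] at a1 ⊢
    linarith
  have f4 := fun j => ((hC j).1.const_mul _).mono' ((((hφ.continuous.comp (i1 j)).sub
    (hφ.continuous.comp i0)).aestronglyMeasurable.sub (f2 j).1)) (.of_forall (f3 j))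
  refine ⟨fun j => ((f4 j).add (f2 j)).congr (.of_forall fun t => sub_add_cancel _ _), (Cx.O1.add ⟨T * |L| * C, by positivity, fun j =>
    (norm_integral_le_of_norm_le ((hC j).1.const_mul _) (.of_forall (f3 j))).trans
      (((hC j).mul (by positivity)).2.trans_eq (by ring))⟩
    (Cx.O1.sum Finset.univ fun i _ => (h i).o1 hX _ (pf i).q)).congr fun j => ?_⟩
  have f5 := integral_add (f4 j) (f2 j)
  simp only [Pi.sub_apply, comp_apply, sub_add_cancel] at f5
  simp only [f5, gA, gP, inner_sum, Finset.sum_sub_distrib]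
  rw [integral_finsetSum _ fun i _ => (f1 j i).1, Finset.sum_congr rfl fun i _ => (f1 j i).2,
    integral_finsetSum _ fun i _ => oα.inner hX j (lA i),
    integral_finsetSum _ fun i _ => oη.inner hX j (lP i)]
  simp only [smul_eq_mul, bt]
  ring

end Crest.Agent.X212.Lg24
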