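import Crest.Agent.X212.Dgr80.Win

/-!
# Row 212, KP-LG (helper24): Schur test for the window, smoothing of Lipschitz functions
-/

set_option autoImplicit false
set_option linter.unusedSectionVars false
noncomputable section
open scoped Topology ContDiff
open MeasureTheory Set Filter Real

namespace Crest.Agent.X212.Lg24
open Dgr80

variable {δ : ℝ}

theorem ker_le (hδ : 0 < δ) (u : ℝ) : exp (δ / 2 * |u|) * b δ u ≤ 8 * b (δ / 2) u := by
  have h1 := mul_le_mul_of_nonneg_left (b_le_exp hδ u) (exp_pos (δ / 2 * |u|)).le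
  rw [mul_left_comm, ← exp_add, show δ / 2 * |u| + -(δ * |u|) = -(δ / 2 * |u|) by ring] at h1
  linarith [b_ge (half_pos hδ) u]

section schur
variable {M : Type*} [MeasurableSpace M] {μ : Measure M} {τ : M → ℝ} {w : ℝ → ℝ} {g : M → ℝ}
  {V K : ℝ}

theorem wn_sub (hδ : 0 < δ) {h : M → ℝ} (hg : WI μ τ δ g) (hh : WI μ τ δ h) (t : ℝ) :
    wn μ τ δ (fun x => g x - h x) t = wn μ τ δ g t - wn μ τ δ h t := by
  simp only [wn, smul_sub]
  exact integral_sub (hg.int hδ t) (hh.int hδ t)

theorem wi_bd (hδ : 0 < δ) (h1 : WI μ τ δ fun _ => (1 : ℝ)) (hg : AEStronglyMeasurable g μ)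
    (hK : ∀ x, |g x| ≤ K) : WI μ τ δ g := h1.mono hδ hg (C := K) fun x => by simpa using hK x

theorem wn_sq (hδ : 0 < δ) (h1 : WI μ τ δ fun _ => (1 : ℝ)) {t : ℝ}
    (hV : wn μ τ δ (fun _ => (1 : ℝ)) t ≤ V) (hg : WI μ τ δ g) (h2 : WI μ τ δ fun x => g x ^ 2) :
    wn μ τ δ g t ^ 2 ≤ V * wn μ τ δ (fun x => g x ^ 2) t := by
  have := discrim_le_zero (a := V) (b := -2 * wn μ τ δ g t) (c := wn μ τ δ (fun x => g x ^ 2) t)
    fun l => by
      have e := integral_mono ((hg.int hδ t).const_mul (2 * l))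
        (((h1.int hδ t).const_mul (l * l)).add (h2.int hδ t)) fun x => by
          simp only [Pi.add_apply, smul_eq_mul]
          nlinarith [mul_nonneg (b_pos hδ (τ x - t)).le (sq_nonneg (g x - l))]
      simp only [Pi.add_apply] at e
      rw [integral_add ((h1.int hδ t).const_mul _) (h2.int hδ t), integral_const_mul,
        integral_const_mul] at e
      have := mul_le_mul_of_nonneg_left hV (mul_self_nonneg l)
      simp only [wn] at this ⊢
      linarith
  rw [discrim] at this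
  linarith

/-- **Schur test** -/
theorem schur [SFinite μ] (hδ : 0 < δ) (h1 : WI μ τ δ fun _ => (1 : ℝ))
    (hV : ∀ t, wn μ τ δ (fun _ => (1 : ℝ)) t ≤ V) (cw : Continuous w) (w0 : ∀ t, 0 ≤ w t)
    (hw : ∀ s t, w t ≤ exp (δ / 2 * |s - t|) * w s) (hg : AEStronglyMeasurable g μ)
    (hK : ∀ x, |g x| ≤ K) (hi : Integrable (fun x => w (τ x) * g x ^ 2) μ) :
    Integrable (fun t => w t * wn μ τ δ g t ^ 2) ∧
      ∫ t, w t * wn μ τ δ g t ^ 2 ≤ 8 * V * ∫ x, w (τ x) * g x ^ 2 ∂μ := by
  have h2 := wi_bd hδ h1 hg hK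
  have h3 := wi_bd hδ h1 (hg.pow 2) (K := K ^ 2) fun x => by
    simpa using pow_le_pow_left₀ (abs_nonneg _) (hK x) 2
  have V0 : 0 ≤ V := (wn_nonneg hδ (fun _ => zero_le_one) 0).trans (hV 0)
  obtain ⟨i1, i2⟩ := integral_wn (half_pos hδ) h1.τm hi
  have le : ∀ t, w t * wn μ τ δ g t ^ 2 ≤
      8 * V * wn μ τ (δ / 2) (fun x => w (τ x) * g x ^ 2) t := fun t => by
    refine (mul_le_mul_of_nonneg_left (wn_sq hδ h1 (hV t) h2 h3) (w0 t)).trans ?_
    rw [mul_left_comm, mul_comm 8, mul_assoc]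
    refine mul_le_mul_of_nonneg_left ?_ V0
    rw [wn, wn, ← integral_const_mul, ← integral_const_mul]
    refine integral_mono ((h3.int hδ t).const_mul _) (((WI.of_integrable (half_pos hδ) h1.τm
      hi).int (half_pos hδ) t).const_mul _) fun x => ?_
    have a := mul_le_mul_of_nonneg_right (hw (τ x) t) (b_pos hδ (τ x - t)).le
    have c := mul_le_mul_of_nonneg_left (ker_le hδ (τ x - t)) (w0 (τ x))
    simp only [smul_eq_mul]
    nlinarith [mul_le_mul_of_nonneg_right (show w t * b δ (τ x - t) ≤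
      8 * b (δ / 2) (τ x - t) * w (τ x) by linarith) (sq_nonneg (g x))]
  have i3 := (i1.const_mul (8 * V)).mono' (cw.mul ((h2.contDiff_wn hδ).continuous.pow
    2)).aestronglyMeasurable (.of_forall fun t =>
      (Real.norm_of_nonneg (mul_nonneg (w0 t) (sq_nonneg _))).trans_le (le t))
  exact ⟨i3, (integral_mono i3 (i1.const_mul _) le).trans_eq (by rw [integral_const_mul, i2])⟩

end schur

/-- smoothing of a Lipschitz function -/
theorem smooth {ψ : ℝ → ℝ} {d : ℝ} (hc : Continuous ψ) (d0 : 0 ≤ d)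
    (h : ∀ s t, |ψ s - ψ t| ≤ d * |s - t|) : ∃ χ : ℝ → ℝ, ContDiff ℝ ∞ χ ∧
      (∀ t, |χ t - ψ t| ≤ 16 * d) ∧ ∀ k t, |iteratedDeriv (k + 1) χ t| ≤ cb 1 (k + 1) * (16 * d) := by
  have k1 : ∀ t s, b 1 (s - t) * ‖ψ s - ψ t‖ ≤ 16 * d * b (1 / 2) (s - t) := fun t s => by
    have a1 := mul_le_mul_of_nonneg_left (ker_le one_pos (s - t)) d0
    have a2 := mul_le_mul_of_nonneg_left (h s t) (b_pos one_pos (s - t)).le
    have a3 := mul_le_mul_of_nonneg_left (add_one_le_exp (1 / 2 * |s - t|))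
      (mul_nonneg d0 (b_pos one_pos (s - t)).le)
    rw [Real.norm_eq_abs]
    nlinarith [mul_nonneg d0 (b_pos one_pos (s - t)).le]
  have i1 : ∀ t, Integrable fun s => b (1 / 2) (s - t) := fun t =>
    (integrable_b one_half_pos).comp_sub_right t
  have w1 := wi_of_bdd one_pos (c := fun _ => 1) aestronglyMeasurable_const (C := 1) (by simp)
  have w0 : WI volume id 1 fun s => ψ s - ψ 0 := ⟨w1.τm, (hc.sub continuous_const).aestronglyMeasurable,
    ((i1 0).const_mul (16 * d)).mono' ((continuous_b 1).mul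
      (hc.sub continuous_const).norm).aestronglyMeasurable (.of_forall fun s => by
        rw [Real.norm_of_nonneg (mul_nonneg (b_pos one_pos _).le (norm_nonneg _))]
        simpa using k1 0 s)⟩
  have wt : ∀ c : ℝ, WI volume id 1 fun s => ψ s - c := fun c =>
    ⟨w1.τm, (hc.sub continuous_const).aestronglyMeasurable, (w0.i.add (w1.i.mul_const |ψ 0 - c|)).mono'
      ((continuous_b 1).mul (hc.sub continuous_const).norm).aestronglyMeasurable (.of_forall fun s => by
        rw [Real.norm_of_nonneg (mul_nonneg (b_pos one_pos _).le (norm_nonneg _))]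
        simpa [mul_add] using mul_le_mul_of_nonneg_left (abs_sub_le (ψ s) (ψ 0) c) (b_pos one_pos s).le)⟩
  have k2 : ∀ t, wn volume id 1 (fun s => ‖ψ s - ψ t‖) t ≤ 16 * d := fun t =>
    (integral_mono ((wt _).norm.int one_pos t) ((i1 t).const_mul _) (k1 t)).trans_eq (by
      rw [integral_const_mul, integral_sub_right_eq_self, integral_b one_half_pos, mul_one])
  have e : ∀ c, wn volume id 1 (fun s => ψ s - 0) = fun t => wn volume id 1 (fun s => ψ s - c) t + c :=
    fun c => funext fun t => by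
      have := wn_sub one_pos (wt 0) (wt c) t
      simp only [sub_zero, sub_sub_cancel] at this ⊢
      rw [← cv_eq_wn, cv, integral_const_mul, integral_b_sub one_pos] at this
      linarith
  refine ⟨_, (wt 0).contDiff_wn one_pos, fun t => ?_, fun k t => ?_⟩
  · rw [e (ψ t), add_sub_cancel_right]
    exact ((wt _).norm_wn_le one_pos t).trans (k2 t)
  · rw [e (ψ t), iteratedDeriv_succ', deriv_add_const', ← iteratedDeriv_succ',
      (wt _).iteratedDeriv_wn one_pos]
    exact ((wt _).norm_wnd_le one_pos _ t).trans (mul_le_mul_of_nonneg_left (k2 t) (cb_nonneg _ _))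

end Crest.Agent.X212.Lg24
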